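import Vale.Agent.Lib.P033A.Every
import Vale.Agent.Lib.P033C.FlatAll
import Vale.Agent.Lib.P110T.CorrFin

/-! P033: circulant sign matrices of every large order which are almost Hadamard in operator norm. -/

namespace Vale.Agent.Results.P033.AlmostHadamardEveryOrder

open Vale.Agent Vale.Agent.P033A

/-- For every `c > 0` there is `n₀` such that in every order `n ≥ n₀` there is a circulant matrix
`H` with entries `1`, `-1`, all of whose singular values lie in `[(1 - c) √n, (1 + c) √n]`, and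
`‖H Hᵀ - n I‖ ≤ c n` in operator norm. -/
theorem result : ∀ c : ℝ, 0 < c → ∃ n₀ : ℕ, ∀ (n : ℕ) [NeZero n], n₀ ≤ n → ∃ h : ZMod n → ℝ,
      (∀ j, h j = 1 ∨ h j = -1) ∧
      (∀ v : ZMod n → ℝ,
        (1 - c) * Real.sqrt n * Real.sqrt (∑ i, v i ^ 2) ≤
          Real.sqrt (∑ i, ((circ h).mulVec v i) ^ 2) ∧
        Real.sqrt (∑ i, ((circ h).mulVec v i) ^ 2) ≤
          (1 + c) * Real.sqrt n * Real.sqrt (∑ i, v i ^ 2)) ∧
      ∀ v : ZMod n → ℝ,
        Real.sqrt (∑ i, ((circ h * (circ h).transpose - (n : ℝ) • 1).mulVec v i) ^ 2) ≤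
          c * n * Real.sqrt (∑ i, v i ^ 2) :=
  fun c hc => every_order (P033C.flat_all P110T.correction) c hc

end Vale.Agent.Results.P033.AlmostHadamardEveryOrder
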