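import Vale.Agent.Lib.P033C.FlatAll
import Vale.Agent.Lib.P110T.CorrFin

/-! P033: sign sequences of every large length `n` with almost flat discrete Fourier transform. -/

namespace Vale.Agent.Results.P033.AlmostHadamardSpectrum

open Vale.Agent

/-- For every `c > 0` there is `n₀` such that for every `n ≥ n₀` there are signs `h 0, ..., h (n-1)`
with `(1 - c) √n ≤ |∑ j, h j e^{2 π i j k / n}| ≤ (1 + c) √n` for all `k`. -/
theorem result : ∀ c : ℝ, 0 < c → ∃ n₀ : ℕ, ∀ n : ℕ, n₀ ≤ n → ∃ h : Fin n → ℝ,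
    (∀ j, h j = 1 ∨ h j = -1) ∧ ∀ k : ℕ,
      (1 - c) * √(n : ℝ) ≤
        ‖∑ j : Fin n, (h j : ℂ) * Complex.exp (2 * Real.pi * Complex.I * (j : ℕ) * k / n)‖ ∧
      ‖∑ j : Fin n, (h j : ℂ) * Complex.exp (2 * Real.pi * Complex.I * (j : ℕ) * k / n)‖ ≤
        (1 + c) * √(n : ℝ) := by
  intro c hc
  obtain ⟨n₀, h0⟩ := Filter.eventually_atTop.1 (P033C.flat_all P110T.correction c hc)
  refine ⟨n₀, fun n hn => ?_⟩
  obtain ⟨s, hs, hx⟩ := h0 n hn
  refine ⟨fun j => s j, fun j => hs _, fun k => ?_⟩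
  have h1 : ∑ j : Fin n, ((s j : ℝ) : ℂ) * Complex.exp (2 * Real.pi * Complex.I * (j : ℕ) * k / n) =
      ∑ j ∈ Finset.range n, (s j : ℂ) * P110F.e1 ((j : ℝ) * ((k : ℝ) / n)) := by
    rw [← Fin.sum_univ_eq_sum_range
      (fun j => ((s j : ℝ) : ℂ) * P110F.e1 ((j : ℝ) * ((k : ℝ) / n))) n]
    refine Finset.sum_congr rfl fun j _ => ?_
    unfold P110F.e1
    congr 2
    push_cast
    ring
  rw [h1]
  exact hx _

end Vale.Agent.Results.P033.AlmostHadamardSpectrum
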