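import Vale.Agent.Lib.P033.PartD

/-!
# Multipliers of circulant Hadamard matrices

Let `h` be the first row of a circulant Hadamard matrix of order `n = 4 u^2`, `u > 1` odd (these
are the only orders not excluded by Turyn). A multiplier of `h` is a unit `t` of `ZMod n` such that
`j ↦ h (t j)` is a cyclic shift of `h`.
-/

namespace Vale.Agent.Results.P033.Multipliers

open Finset Vale.Agent.P033

/-- The circulant matrix with first row `h`: the entry `(i, j)` is `h (j - i)`. -/
def circ {n : ℕ} (h : ZMod n → ℤ) : Matrix (ZMod n) (ZMod n) ℤ :=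
  Matrix.of fun i j => h (j - i)

/-- `h` is the first row of a circulant Hadamard matrix of order `n`. -/
def IsCirculantHadamard {n : ℕ} [NeZero n] (h : ZMod n → ℤ) : Prop :=
  (∀ j, h j = 1 ∨ h j = -1) ∧ circ h * (circ h).transpose = (n : ℤ) • 1

/-- `t` is a multiplier of `h`: the sequence `j ↦ h (t j)` is a cyclic shift of `h`. -/
def IsMultiplier {n : ℕ} (h : ZMod n → ℤ) (t : (ZMod n)ˣ) : Prop :=
  ∃ c : ZMod n, ∀ j, h (t * j) = h (j + c)

theorem perf_of {n : ℕ} [NeZero n] {h : ZMod n → ℤ} (hh : IsCirculantHadamard h) :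
    Perf h n := by
  intro k
  have h1 := congrFun (congrFun hh.2 0) (-k)
  simp only [circ, Matrix.mul_apply, Matrix.transpose_apply, Matrix.of_apply, sub_zero,
    sub_neg_eq_add, Matrix.smul_apply, Matrix.one_apply, smul_eq_mul] at h1
  rw [h1]
  by_cases hk : k = 0
  · rw [hk]
    simp
  · rw [if_neg hk, if_neg, mul_zero]
    intro h0
    exact hk (neg_eq_zero.1 h0.symm)

theorem mult_pow {n : ℕ} {h : ZMod n → ℤ} {t : (ZMod n)ˣ} (ht : IsMultiplier h t) (k : ℕ) :
    IsMultiplier h (t ^ k) := by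
  induction k with
  | zero => exact ⟨0, fun j => by simp⟩
  | succ k ih =>
    obtain ⟨c, hc⟩ := ht
    obtain ⟨d, hd⟩ := ih
    refine ⟨((t ^ k)⁻¹ : (ZMod n)ˣ) * c + d, fun j => ?_⟩
    have h1 : (((t ^ (k + 1) : (ZMod n)ˣ)) : ZMod n) * j = t * ((t ^ k : (ZMod n)ˣ) * j) := by
      rw [pow_succ', Units.val_mul, mul_assoc]
    have h2 : ((t ^ k : (ZMod n)ˣ) : ZMod n) * j + c =
        (t ^ k : (ZMod n)ˣ) * (j + ((t ^ k)⁻¹ : (ZMod n)ˣ) * c) := by
      rw [mul_add, ← mul_assoc, Units.mul_inv, one_mul]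
    rw [h1, hc, h2, hd, add_assoc]

theorem val_three {n : ℕ} [NeZero n] (h4 : 4 ∣ n) (x : ZMod n) :
    x.val % 4 = 3 ↔ ZMod.castHom h4 (ZMod 4) x = -1 := by
  have h1 : ((x.val : ℕ) : ZMod n) = x := ZMod.natCast_zmod_val x
  conv_rhs => rw [← h1, map_natCast]
  rw [show (-1 : ZMod 4) = ((3 : ℕ) : ZMod 4) by decide, ZMod.natCast_eq_natCast_iff]
  rfl

theorem result (u : ℕ) (hu : Odd u) (hu1 : 1 < u) (n : ℕ) (hn : n = 4 * u ^ 2) [NeZero n]
    (h : ZMod n → ℤ) (hh : IsCirculantHadamard h) (t : (ZMod n)ˣ) (ht : IsMultiplier h t) :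
    ((t : ZMod n).val % 4 = 3 → 4 ∣ orderOf t) ∧
    ((∀ p : ℕ, p.Prime → p ∣ u → p % 4 = 3) → (t : ZMod n).val % 4 = 1) ∧
    (∀ w v : ℕ, u = w * v → Nat.Coprime w v → w ^ 2 ∣ (t : ZMod n).val + 1 →
      w ≤ 2 * v ^ 2 ∧ 2 * w.totient ≤ w + v) ∧
    (¬ u ^ 2 ∣ (t : ZMod n).val + 1) ∧
    (∀ p : ℕ, p.Prime → p ∣ n → (t : ZMod n).val ≡ 1 [MOD n / p] → t = 1) := by
  have hperf : Perf h (4 * (u : ℤ) ^ 2) := by
    have := perf_of hh
    rw [show ((n : ℕ) : ℤ) = 4 * (u : ℤ) ^ 2 by rw [hn]; push_cast; ring] at this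
    exact this
  have hpm := hh.1
  have h4n : 4 ∣ n := ⟨u ^ 2, hn⟩
  have hupos : 0 < u := hu.pos
  have hA : ∀ t : (ZMod n)ˣ, IsMultiplier h t → (t : ZMod n).val % 4 = 3 →
      4 ∣ orderOf t := by
    intro t ht h3
    by_contra hcon
    have hneg := (val_three h4n _).1 h3
    have hpow : ∀ k : ℕ, ZMod.castHom h4n (ZMod 4) ((t ^ k : (ZMod n)ˣ) : ZMod n) =
        (-1) ^ k := by
      intro k
      rw [Units.val_pow_eq_pow_val, map_pow, hneg]
    have heven : Even (orderOf t) := by
      have h1 := hpow (orderOf t)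
      rw [pow_orderOf_eq_one, Units.val_one, map_one] at h1
      by_contra hodd
      rw [Nat.not_even_iff_odd] at hodd
      rw [hodd.neg_one_pow] at h1
      exact absurd h1 (by decide)
    obtain ⟨k, hk⟩ := heven
    have hkodd : Odd k := by
      rw [← Nat.not_even_iff_odd]
      rintro ⟨m, hm⟩
      apply hcon
      exact ⟨m, by omega⟩
    obtain ⟨c, hc⟩ := mult_pow ht k
    apply no_involution hu hu1 hn h hpm hperf (t ^ k) c hc
    · have : t ^ k * t ^ k = 1 := by
        rw [← pow_add, ← hk, pow_orderOf_eq_one]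
      rw [← Units.val_mul, this, Units.val_one]
    · rw [val_three h4n, hpow, hkodd.neg_one_pow]
  have hB : ∀ w v : ℕ, u = w * v → Nat.Coprime w v → w ^ 2 ∣ (t : ZMod n).val + 1 →
      w ≤ 2 * v ^ 2 ∧ 2 * w.totient ≤ w + v := by
    intro w v huw hcop hw
    obtain ⟨c, hc⟩ := ht
    exact ⟨partB hu hn huw hcop h hpm hperf t c hc hw,
      partD hu hn huw h hpm hperf t c hc hw⟩
  refine ⟨hA t ht, ?_, hB, ?_, ?_⟩
  · -- all prime factors are 3 mod 4
    intro hall
    have hodd : (t : ZMod n).val % 2 = 1 := by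
      have h1 : ((t : ZMod n).val).Coprime n := ZMod.val_coe_unit_coprime t
      have h2 : ((t : ZMod n).val).Coprime 2 :=
        Nat.Coprime.coprime_dvd_right ⟨2 * u ^ 2, by rw [hn]; ring⟩ h1
      rw [Nat.coprime_two_right] at h2
      exact Nat.odd_iff.1 h2
    by_contra hcon
    obtain ⟨m, hm⟩ := hA t ht (by omega)
    have hord : 0 < orderOf t := orderOf_pos t
    set s := t ^ m with hs
    have hs4 : s ^ 4 = 1 := by
      rw [hs, ← pow_mul, mul_comm, ← hm, pow_orderOf_eq_one]
    have hs2 : s ^ 2 ≠ 1 := by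
      rw [hs, ← pow_mul]
      intro h1
      have := Nat.le_of_dvd (by omega) (orderOf_dvd_of_pow_eq_one h1)
      omega
    have hsv : (((s : ZMod n).val : ℕ) : ZMod n) = s := ZMod.natCast_zmod_val _
    have hscop : ((s : ZMod n).val).Coprime n := ZMod.val_coe_unit_coprime s
    generalize (s : ZMod n).val = a at hsv hscop
    have haodd : a % 2 = 1 := by
      have h2 : a.Coprime 2 :=
        Nat.Coprime.coprime_dvd_right ⟨2 * u ^ 2, by rw [hn]; ring⟩ hscop
      rw [Nat.coprime_two_right] at h2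
      exact Nat.odd_iff.1 h2
    have ha1 : 1 ≤ a ^ 2 := Nat.one_le_pow _ _ (by omega)
    have hdiv : n ∣ (a ^ 2 - 1) * (a ^ 2 + 1) := by
      rw [← ZMod.natCast_eq_zero_iff, Nat.cast_mul, Nat.cast_sub ha1]
      push_cast
      rw [hsv]
      have h1 := congrArg Units.val hs4
      rw [Units.val_pow_eq_pow_val, Units.val_one] at h1
      linear_combination h1
    have hndiv : ¬ n ∣ a ^ 2 - 1 := by
      intro h1
      apply hs2
      rw [← ZMod.natCast_eq_zero_iff, Nat.cast_sub ha1] at h1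
      push_cast at h1
      rw [hsv] at h1
      apply Units.ext
      rw [Units.val_pow_eq_pow_val, Units.val_one]
      linear_combination h1
    have h4a : 4 ∣ a ^ 2 - 1 := by
      obtain ⟨k, hk⟩ : ∃ k, a = 2 * k + 1 := ⟨a / 2, by omega⟩
      refine ⟨k ^ 2 + k, ?_⟩
      rw [hk, show (2 * k + 1) ^ 2 = 4 * (k ^ 2 + k) + 1 by ring]
      omega
    have hcop4 : Nat.Coprime 4 (u ^ 2) :=
      Nat.Coprime.pow_right _ (Nat.Coprime.pow_left 2 (Nat.coprime_two_left.2 hu))
    have hnu : ¬ u ^ 2 ∣ a ^ 2 - 1 := by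
      intro h1
      apply hndiv
      rw [hn]
      exact hcop4.mul_dvd_of_dvd_of_dvd h4a h1
    obtain ⟨p, k, hp, hpk, hnd⟩ : ∃ p k : ℕ, p.Prime ∧ p ^ k ∣ u ^ 2 ∧ ¬ p ^ k ∣ a ^ 2 - 1 := by
      by_contra hcon2
      push Not at hcon2
      apply hnu
      exact (Nat.dvd_iff_prime_pow_dvd_dvd _ _).2 fun p k hp hk => hcon2 p k hp hk
    have hk0 : k ≠ 0 := by
      rintro rfl
      exact hnd (by simp)
    have hpu : p ∣ u := hp.dvd_of_dvd_pow ((dvd_pow_self p hk0).trans hpk)
    have hpa : p ∣ a ^ 2 + 1 := by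
      by_contra h3
      have h4 : (p ^ k).Coprime (a ^ 2 + 1) :=
        Nat.Coprime.pow_left _ ((Nat.Prime.coprime_iff_not_dvd hp).2 h3)
      apply hnd
      apply h4.dvd_of_dvd_mul_right
      exact hpk.trans (Dvd.dvd.trans ⟨4, by rw [hn]; ring⟩ hdiv)
    have hFp : Fact p.Prime := ⟨hp⟩
    have h5 : ((a : ℕ) : ZMod p) ^ 2 = -1 := by
      have := (ZMod.natCast_eq_zero_iff (a ^ 2 + 1) p).2 hpa
      push_cast at this
      linear_combination this
    exact ZMod.mod_four_ne_three_of_sq_eq_neg_one h5 (hall p hp hpu)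
  · intro h1
    have := (hB u 1 (by ring) (Nat.coprime_one_right u) h1).1
    obtain ⟨k, hk⟩ := hu
    omega
  · intro p hp hpn hmod
    have htv : (((t : ZMod n).val : ℕ) : ZMod n) = t := ZMod.natCast_zmod_val _
    have htcop : ((t : ZMod n).val).Coprime n := ZMod.val_coe_unit_coprime t
    have htlt : (t : ZMod n).val < n := ZMod.val_lt _
    obtain ⟨κ, hκ⟩ := hpn
    have hnp : n / p = κ := by
      rw [hκ]
      exact Nat.mul_div_cancel_left κ hp.pos
    rw [hnp] at hmod
    have hn1 : 1 < n := by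
      rw [hn]
      nlinarith
    have ht1 : 1 ≤ (t : ZMod n).val := by
      by_contra h0
      have h1 : (t : ZMod n).val = 0 := by omega
      rw [h1, Nat.coprime_zero_left] at htcop
      omega
    have hd : κ ∣ (t : ZMod n).val - 1 := (Nat.modEq_iff_dvd' ht1).1 hmod.symm
    by_cases hp2 : p = 2
    · -- t = 1 + n/2
      subst hp2
      by_contra hne
      obtain ⟨x, hx⟩ := hd
      have hκu : κ = 2 * u ^ 2 := by
        have : 2 * κ = 2 * (2 * u ^ 2) := by
          rw [← hκ, hn]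
          ring
        omega
      have hxlt : x < 2 := by
        by_contra hc
        have : κ * 2 ≤ κ * x := Nat.mul_le_mul_left _ (by omega)
        omega
      have hx0 : x ≠ 0 := by
        rintro rfl
        apply hne
        apply Units.ext
        rw [← htv, show (t : ZMod n).val = 1 by omega]
        simp
      have hval : (t : ZMod n).val = 1 + 2 * u ^ 2 := by
        have : x = 1 := by omega
        rw [this, hκu] at hx
        omega
      have h3 : (t : ZMod n).val % 4 = 3 := by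
        obtain ⟨k, hk⟩ := hu
        rw [hval, hk, show 1 + 2 * (2 * k + 1) ^ 2 = 4 * (2 * k ^ 2 + 2 * k) + 3 by ring]
        omega
      have h4 := hA t ht h3
      have ht2 : t ^ 2 = 1 := by
        apply Units.ext
        rw [Units.val_pow_eq_pow_val, Units.val_one, ← htv, hval]
        have hz : ((4 * u ^ 2 : ℕ) : ZMod n) = 0 := by
          rw [← hn]
          exact ZMod.natCast_self n
        push_cast at hz ⊢
        linear_combination (1 + (u : ZMod n) ^ 2) * hz
      have := Nat.le_of_dvd (by norm_num) (orderOf_dvd_of_pow_eq_one ht2)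
      have h5 := Nat.le_of_dvd (orderOf_pos t) h4
      omega
    · obtain ⟨c, hc⟩ := ht
      have hpu : p ∣ u := by
        have h1 : p ∣ 4 * u ^ 2 := by
          rw [← hn, hκ]
          exact Dvd.intro _ rfl
        rcases (Nat.Prime.dvd_mul hp).1 h1 with h2 | h2
        · exfalso
          apply hp2
          have : p ∣ 2 ^ 2 := h2
          exact (Nat.prime_dvd_prime_iff_eq hp Nat.prime_two).1 (hp.dvd_of_dvd_pow this)
        · exact hp.dvd_of_dvd_pow h2
      have hpκ : p ∣ κ := by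
        obtain ⟨v, hv⟩ := hpu
        have h1 : p * κ = p * (p * (4 * v ^ 2)) := by
          rw [← hκ, hn, hv]
          ring
        exact ⟨4 * v ^ 2, Nat.eq_of_mul_eq_mul_left hp.pos h1⟩
      have hv0 : (t : ZMod n) - 1 = 0 := by
        apply partC hn hp hp2 hκ hpκ h hpm hperf ((t : ZMod n) - 1) c
        · intro j
          rw [add_sub_cancel]
          exact hc j
        · obtain ⟨x, hx⟩ := hd
          have h1 : ((p * ((t : ZMod n).val - 1) : ℕ) : ZMod n) = 0 := by
            rw [ZMod.natCast_eq_zero_iff, hx]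
            exact ⟨x, by rw [← mul_assoc, ← hκ]⟩
          rw [Nat.cast_mul, Nat.cast_sub ht1, htv, Nat.cast_one] at h1
          exact h1
      apply Units.ext
      rw [Units.val_one]
      exact sub_eq_zero.1 hv0

end Vale.Agent.Results.P033.Multipliers
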